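import Vale.Agent.P254.NS.LimC.Basic

/-! P254 NS, non-even copy of P227 block LIM (helper273): compactness of the class `Good a A M` (pointwise subsequential limits). -/

open MeasureTheory Filter Topology Set
open scoped RealInnerProductSpace

namespace Vale.Agent.P254.NS.LimC

variable {E : Type*} [NormedAddCommGroup E] [InnerProductSpace ℝ E] [FiniteDimensional ℝ E]

/-- sequences with values in a proper space, bounded at each index, have a subsequence which
converges at every index. -/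
theorem exists_subseq_nat {F : Type*} [NormedAddCommGroup F] [ProperSpace F]
    (u : ℕ → ℕ → F) (R : ℕ → ℝ) (hR : ∀ k i, ‖u k i‖ ≤ R i) :
    ∃ ψ : ℕ → ℕ, StrictMono ψ ∧ ∃ v : ℕ → F, ∀ i, Tendsto (fun k => u (ψ k) i) atTop (𝓝 (v i)) := by
  have hc : IsCompact (Set.pi univ fun i => Metric.closedBall (0 : F) (R i)) :=
    isCompact_univ_pi fun i => isCompact_closedBall 0 (R i)
  obtain ⟨v, -, ψ, hψ, hv⟩ := hc.tendsto_subseq (x := u) (fun k i _ => by
    simpa using hR k i)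
  exact ⟨ψ, hψ, v, fun i => (tendsto_pi_nhds.mp hv) i⟩

/-- Locally equi-Lipschitz sequences which converge on a dense sequence converge everywhere. -/
theorem tendsto_of_dense {F : Type*} [NormedAddCommGroup F] [CompleteSpace F]
    {X : Type*} [PseudoMetricSpace X] (d : ℕ → X) (hd : DenseRange d) (f : ℕ → X → F)
    (L : X → ℝ) (hL : ∀ x, 0 ≤ L x)
    (hf : ∀ x, ∀ k y, dist x y ≤ 1 → ‖f k x - f k y‖ ≤ L x * dist x y)
    (hconv : ∀ i, ∃ v, Tendsto (fun k => f k (d i)) atTop (𝓝 v)) (x : X) :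
    ∃ v, Tendsto (fun k => f k x) atTop (𝓝 v) := by
  apply cauchySeq_tendsto_of_complete
  rw [Metric.cauchySeq_iff]
  intro ε hε
  have hLpos : 0 < L x + 1 := by linarith [hL x]
  obtain ⟨i, hi⟩ := hd.exists_dist_lt x (show 0 < min 1 (ε / (3 * (L x + 1))) by positivity)
  have hi1 : dist x (d i) ≤ 1 := (hi.le).trans (min_le_left _ _)
  have hi2 : dist x (d i) < ε / (3 * (L x + 1)) := lt_of_lt_of_le hi (min_le_right _ _)
  obtain ⟨v, hv⟩ := hconv i
  obtain ⟨N, hN⟩ := (Metric.cauchySeq_iff.mp hv.cauchySeq) (ε / 3) (by positivity)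
  refine ⟨N, fun m hm n hn => ?_⟩
  have h1 := hf x m (d i) hi1
  have h2 := hf x n (d i) hi1
  have h3 := hN m hm n hn
  have h4 : L x * dist x (d i) ≤ ε / 3 := by
    have : L x * dist x (d i) ≤ (L x + 1) * (ε / (3 * (L x + 1))) := by
      have := hL x
      gcongr
      linarith
    refine this.trans (le_of_eq ?_)
    field_simp
  rw [dist_eq_norm] at h3 ⊢
  calc ‖f m x - f n x‖ = ‖(f m x - f m (d i)) + (f m (d i) - f n (d i)) - (f n x - f n (d i))‖ := by
        congr 1; abel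
    _ ≤ ‖f m x - f m (d i)‖ + ‖f m (d i) - f n (d i)‖ + ‖f n x - f n (d i)‖ :=
        (norm_sub_le _ _).trans (by gcongr; exact norm_add_le _ _)
    _ < ε := by linarith

/-- a quadratic error bound gives differentiability -/
theorem hasFDerivAt_of_quad {X F : Type*} [NormedAddCommGroup X] [NormedSpace ℝ X]
    [NormedAddCommGroup F] [NormedSpace ℝ F] (f : X → F) (f' : X →L[ℝ] F)
    (y : X) (B : ℝ) (hB : ∀ z, ‖f z - f y - f' (z - y)‖ ≤ B * ‖z - y‖ * ‖z - y‖) (hB0 : 0 ≤ B) :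
    HasFDerivAt f f' y := by
  rw [hasFDerivAt_iff_isLittleO]
  refine Asymptotics.IsLittleO.of_bound fun c hc => ?_
  have : ∀ᶠ z in 𝓝 y, ‖z - y‖ < c / (B + 1) := by
    have := Metric.ball_mem_nhds y (show 0 < c / (B + 1) by positivity)
    filter_upwards [this] with z hz
    rwa [Metric.mem_ball, dist_eq_norm] at hz
  filter_upwards [this] with z hz
  refine (hB z).trans ?_
  have : B * ‖z - y‖ ≤ c := by
    calc B * ‖z - y‖ ≤ (B + 1) * (c / (B + 1)) := by gcongr; linarith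
      _ = c := by field_simp
  gcongr

variable {a A M C : ℝ}

/-- pointwise limits of `Good` functions are `Good` -/
theorem Good.of_tendsto {φ : ℕ → E → ℝ} {g : ℕ → E → E} {T : ℕ → E → (E →L[ℝ] E)} (hM : 0 ≤ M)
    (h : ∀ k, Good a A M (φ k) (g k) (T k))
    {φ' : E → ℝ} {g' : E → E} {T' : E → (E →L[ℝ] E)}
    (h1 : ∀ y, Tendsto (fun k => φ k y) atTop (𝓝 (φ' y)))
    (h2 : ∀ y, Tendsto (fun k => g k y) atTop (𝓝 (g' y)))
    (h3 : ∀ y, Tendsto (fun k => T k y) atTop (𝓝 (T' y))) :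
    Good a A M φ' g' T' := by
  have hA : 0 ≤ A := (h 0).A_nonneg
  refine ⟨fun y => ?_, fun y => ?_, ?_, fun y v => ?_, fun y => ?_, fun y z => ?_⟩
  · refine hasFDerivAt_of_quad φ' (innerSL ℝ (g' y)) y A (fun z => ?_) hA
    have hl : Tendsto (fun k => ‖φ k z - φ k y - innerSL ℝ (g k y) (z - y)‖) atTop
        (𝓝 ‖φ' z - φ' y - innerSL ℝ (g' y) (z - y)‖) := by
      refine (((h1 z).sub (h1 y)).sub ?_).norm
      simp only [innerSL_apply_apply]
      exact (h2 y).inner tendsto_const_nhds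
    refine le_of_tendsto' hl fun k => ?_
    have := (h k).φ_taylor y z
    simpa [innerSL_apply_apply] using this
  · refine hasFDerivAt_of_quad g' (T' y) y M (fun z => ?_) hM
    have hl : Tendsto (fun k => ‖g k z - g k y - T k y (z - y)‖) atTop
        (𝓝 ‖g' z - g' y - T' y (z - y)‖) := by
      refine (((h2 z).sub (h2 y)).sub ?_).norm
      exact ((ContinuousLinearMap.apply ℝ E (z - y)).continuous.tendsto (T' y)).comp (h3 y)
    exact le_of_tendsto' hl fun k => (h k).g_taylor hM y z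
  · have e : ∀ k, g k 0 = 0 := fun k => (h k).zero
    have := h2 0
    simp only [e] at this
    exact tendsto_nhds_unique this tendsto_const_nhds
  · have hl : Tendsto (fun k => ⟪T k y v, v⟫) atTop (𝓝 ⟪T' y v, v⟫) :=
      (((ContinuousLinearMap.apply ℝ E v).continuous.tendsto (T' y)).comp (h3 y)).inner
        tendsto_const_nhds
    exact ge_of_tendsto' hl fun k => (h k).lower y v
  · exact le_of_tendsto' (h3 y).norm fun k => (h k).upper y
  · exact le_of_tendsto' ((h3 y).sub (h3 z)).norm fun k => (h k).lip y z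

/-- Compactness: a sequence of `Good` functions with `|φ k 0| ≤ C` has a subsequence that converges
pointwise (with gradients and Hessians) to a `Good` function. -/
theorem exists_limit {φ : ℕ → E → ℝ} {g : ℕ → E → E} {T : ℕ → E → (E →L[ℝ] E)} (hM : 0 ≤ M)
    (h : ∀ k, Good a A M (φ k) (g k) (T k)) (hC : ∀ k, |φ k 0| ≤ C) :
    ∃ ψ : ℕ → ℕ, StrictMono ψ ∧ ∃ (φ' : E → ℝ) (g' : E → E) (T' : E → (E →L[ℝ] E)),
      (∀ y, Tendsto (fun k => φ (ψ k) y) atTop (𝓝 (φ' y))) ∧
      (∀ y, Tendsto (fun k => g (ψ k) y) atTop (𝓝 (g' y))) ∧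
      (∀ y, Tendsto (fun k => T (ψ k) y) atTop (𝓝 (T' y))) ∧ Good a A M φ' g' T' := by
  have hA : 0 ≤ A := (h 0).A_nonneg
  let d : ℕ → E := TopologicalSpace.denseSeq E
  have hd : DenseRange d := TopologicalSpace.denseRange_denseSeq E
  let u : ℕ → ℕ → ℝ × E × (E →L[ℝ] E) := fun k i => (φ k (d i), g k (d i), T k (d i))
  have hu : ∀ k i, ‖u k i‖ ≤ max (C + A * ‖d i‖ ^ 2) (max (A * ‖d i‖) A) := by
    intro k i
    rw [Prod.norm_def, Prod.norm_def]
    refine max_le_max ?_ (max_le_max ((h k).norm_g_le _) ((h k).upper _))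
    have h1 := (h k).φ_taylor 0 (d i)
    rw [(h k).g_zero, inner_zero_left, sub_zero, sub_zero] at h1
    have h2 := hC k
    rw [Real.norm_eq_abs]
    show |φ k (d i)| ≤ _
    have h3 : |φ k (d i)| ≤ |φ k (d i) - φ k 0| + |φ k 0| := by
      have := abs_add_le (φ k (d i) - φ k 0) (φ k 0)
      simpa using this
    nlinarith
  obtain ⟨ψ, hψ, v, hv⟩ := exists_subseq_nat u _ hu
  have c1 : ∀ i, ∃ w, Tendsto (fun k => φ (ψ k) (d i)) atTop (𝓝 w) := fun i =>
    ⟨_, (continuous_fst.tendsto _).comp (hv i)⟩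
  have c2 : ∀ i, ∃ w, Tendsto (fun k => g (ψ k) (d i)) atTop (𝓝 w) := fun i =>
    ⟨_, ((continuous_fst.comp continuous_snd).tendsto _).comp (hv i)⟩
  have c3 : ∀ i, ∃ w, Tendsto (fun k => T (ψ k) (d i)) atTop (𝓝 w) := fun i =>
    ⟨_, ((continuous_snd.comp continuous_snd).tendsto _).comp (hv i)⟩
  have e1 : ∀ y, ∃ w, Tendsto (fun k => φ (ψ k) y) atTop (𝓝 w) := by
    refine tendsto_of_dense d hd (fun k => φ (ψ k)) (fun y => A * (‖y‖ + 1))
      (fun y => by positivity) (fun y k z hyz => ?_) c1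
    rw [dist_eq_norm] at hyz ⊢
    rw [Real.norm_eq_abs]
    refine (h (ψ k)).φ_lip (by linarith) ?_
    calc ‖z‖ = ‖y - (y - z)‖ := by congr 1; abel
      _ ≤ ‖y‖ + ‖y - z‖ := norm_sub_le _ _
      _ ≤ ‖y‖ + 1 := by linarith
  have e2 : ∀ y, ∃ w, Tendsto (fun k => g (ψ k) y) atTop (𝓝 w) :=
    tendsto_of_dense d hd (fun k => g (ψ k)) (fun _ => A) (fun _ => hA)
      (fun y k z _ => by rw [dist_eq_norm]; exact (h (ψ k)).g_lip y z) c2
  have e3 : ∀ y, ∃ w, Tendsto (fun k => T (ψ k) y) atTop (𝓝 w) :=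
    tendsto_of_dense d hd (fun k => T (ψ k)) (fun _ => M) (fun _ => hM)
      (fun y k z _ => by rw [dist_eq_norm]; exact (h (ψ k)).lip y z) c3
  choose φ' hφ' using e1
  choose g' hg' using e2
  choose T' hT' using e3
  exact ⟨ψ, hψ, φ', g', T', hφ', hg', hT',
    Good.of_tendsto hM (fun k => h (ψ k)) hφ' hg' hT'⟩

end Vale.Agent.P254.NS.LimC
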