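import Vale.Agent.P254.NS.LimC.MA

/-! P254 NS, non-even copy of P227 block LIM (helper273): the limit `k → ∞` of level-`k` potentials is a classical solution of the
Monge-Ampere equation. -/

open MeasureTheory Filter Topology Set
open scoped RealInnerProductSpace

namespace Vale.Agent.P254.NS.LimC

variable {E : Type*} [NormedAddCommGroup E] [InnerProductSpace ℝ E] [FiniteDimensional ℝ E]

/-- a (not necessarily symmetric) positive operator has positive determinant -/
theorem det_pos {a : ℝ} (ha : 0 < a) (T : E →L[ℝ] E) (h : ∀ v, a * ‖v‖ ^ 2 ≤ ⟪T v, v⟫) :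
    0 < T.det := by
  let S : ℝ → (E →L[ℝ] E) := fun t => (1 - t) • ContinuousLinearMap.id ℝ E + t • T
  have hS : Continuous fun t => (S t).det := by
    refine ContinuousLinearMap.continuous_det.comp ?_
    fun_prop
  have hne : ∀ t ∈ Icc (0 : ℝ) 1, (S t).det ≠ 0 := by
    intro t ht
    have hpos : ∀ v, v ≠ 0 → 0 < ⟪S t v, v⟫ := by
      intro v hv
      have hv2 : 0 < ‖v‖ ^ 2 := by positivity
      have e : ⟪S t v, v⟫ = (1 - t) * ‖v‖ ^ 2 + t * ⟪T v, v⟫ := by
        simp [S, inner_add_left, inner_smul_left, real_inner_self_eq_norm_sq]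
      rw [e]
      have h1 := h v
      have h2 : 0 ≤ 1 - t := by linarith [ht.2]
      have h3 : 0 ≤ t := ht.1
      rcases eq_or_lt_of_le h3 with h0 | h0
      · rw [← h0]; simpa using hv2
      · have : 0 < t * (a * ‖v‖ ^ 2) := by positivity
        nlinarith [mul_nonneg h2 hv2.le, mul_le_mul_of_nonneg_left h1 h3]
    have hinj : Function.Injective (S t : E →ₗ[ℝ] E) := by
      rw [injective_iff_map_eq_zero]
      intro v hv
      by_contra hne
      have := hpos v hne
      have hv' : S t v = 0 := hv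
      rw [hv', inner_zero_left] at this
      exact lt_irrefl _ this
    have hu : IsUnit (S t : E →ₗ[ℝ] E) := by
      rw [LinearMap.isUnit_iff_ker_eq_bot]
      exact LinearMap.ker_eq_bot.mpr hinj
    exact (LinearMap.isUnit_iff_isUnit_det _ |>.mp hu).ne_zero
  have h0 : (S 0).det = 1 := by
    simp [S, ContinuousLinearMap.det]
  have h1 : S 1 = T := by simp [S]
  by_contra hc
  push Not at hc
  rw [← h1] at hc
  have hmem : (0 : ℝ) ∈ Icc ((S 1).det) ((S 0).det) := ⟨hc, by rw [h0]; norm_num⟩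
  obtain ⟨t, ht, h2⟩ := intermediate_value_Icc' (zero_le_one (α := ℝ)) hS.continuousOn hmem
  exact hne t ht h2

variable [MeasurableSpace E] [BorelSpace E]

/-- pointwise Monge-Ampere gives the pushforward identity for every function -/
theorem push_of_ma {a A M : ℝ} (ha : 0 < a) {φ : E → ℝ} {g : E → E} {T : E → (E →L[ℝ] E)}
    (h : Good a A M φ g T) {p q : E → ℝ} (hpq : ∀ y, p y = q (g y) * |(T y).det|)
    (F : E → ℝ) : ∫ y, F (g y) * p y = ∫ x, F x * q x := by
  have himg : g '' univ = univ := by rw [image_univ]; exact (h.surjective ha).range_eq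
  have := integral_image_eq_integral_abs_det_fderiv_smul volume MeasurableSet.univ
    (fun y _ => (h.hess y).hasFDerivWithinAt) (h.injective ha).injOn (fun x => F x * q x)
  rw [himg] at this
  simp only [Measure.restrict_univ, smul_eq_mul] at this
  rw [this]
  congr 1
  funext y
  rw [hpq y]
  ring

theorem integrable_push {a A M : ℝ} (ha : 0 < a) {φ : E → ℝ} {g : E → E} {T : E → (E →L[ℝ] E)}
    (h : Good a A M φ g T) {p q : E → ℝ} (hpq : ∀ y, p y = q (g y) * |(T y).det|)
    (F : E → ℝ) : (Integrable fun y => F (g y) * p y) ↔ Integrable fun x => F x * q x := by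
  have himg : g '' univ = univ := by rw [image_univ]; exact (h.surjective ha).range_eq
  have := integrableOn_image_iff_integrableOn_abs_det_fderiv_smul volume MeasurableSet.univ
    (fun y _ => (h.hess y).hasFDerivWithinAt) (h.injective ha).injOn (fun x => F x * q x)
  rw [himg] at this
  simp only [IntegrableOn, Measure.restrict_univ, smul_eq_mul] at this
  rw [this]
  have e : (fun y => F (g y) * p y) = fun y => |(T y).det| * (F (g y) * q (g y)) := by
    funext y
    rw [hpq y]
    ring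
  rw [e]

/-- MAIN THEOREM OF BLOCK LIM. -/
theorem exists_moment_map {a A M : ℝ} (ha : 0 < a) (hA : 0 < A) (hM : 0 ≤ M)
    {φ : ℕ → E → ℝ} {g : ℕ → E → E} {T : ℕ → E → (E →L[ℝ] E)}
    (h : ∀ k, Good a A M (φ k) (g k) (T k)) {c₁ c₂ : ℝ} (hc₁ : 0 < c₁)
    (h1 : ∀ k, c₁ ≤ ∫ y, Real.exp (-φ k y)) (h2 : ∀ k, ∫ y, Real.exp (-φ k y) ≤ c₂)
    {V : E → ℝ} (hV : Continuous V)
    (hpush : ∀ (x₀ : E) (δ : ℝ), 0 < δ →
      Tendsto (fun k => ∫ y, bump x₀ δ (g k y) * Real.exp (-φ k y)) atTop
        (𝓝 (∫ x, bump x₀ δ x * Real.exp (-V x)))) :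
    ∃ (φ' : E → ℝ) (g' : E → E) (T' : E → (E →L[ℝ] E)), Good a A M φ' g' T' ∧
      (∀ y, Real.exp (-φ' y) = Real.exp (-V (g' y)) * (T' y).det) ∧
      (∀ y, V (g' y) = φ' y + Real.log (T' y).det) ∧
      (∀ F : E → ℝ, ∫ y, F (g' y) * Real.exp (-φ' y) = ∫ x, F x * Real.exp (-V x)) ∧
      c₁ ≤ ∫ y, Real.exp (-φ' y) ∧ ∫ y, Real.exp (-φ' y) ≤ c₂ := by
  set C := |Real.log (c₁ / ∫ y : E, Real.exp (-(a / 2 * ‖y‖ ^ 2)))| +
      |Real.log (c₂ / ∫ y : E, Real.exp (-(A * ‖y‖ ^ 2)))| with hC
  have hφ0 : ∀ k, |φ k 0| ≤ C := fun k => (h k).abs_φ_zero_le ha hA hc₁ (h1 k) (h2 k)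
  obtain ⟨ψ, hψ, φ', g', T', t1, t2, t3, hG⟩ := exists_limit hM h hφ0
  have ha2 := half_pos ha
  have hdom : ∀ k y, Real.exp (-φ k y) ≤ Real.exp C * Real.exp (-(a / 2 * ‖y‖ ^ 2)) := by
    intro k y
    refine ((h k).exp_le y).trans ?_
    have := neg_abs_le (φ k 0)
    have := hφ0 k
    gcongr
    linarith
  have e1 : Tendsto (fun k => ∫ y, Real.exp (-φ (ψ k) y)) atTop (𝓝 (∫ y, Real.exp (-φ' y))) := by
    refine tendsto_integral_of_dominated_convergence
      (fun y => Real.exp C * Real.exp (-(a / 2 * ‖y‖ ^ 2)))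
      (fun k => (h (ψ k)).continuous_φ.neg.rexp.aestronglyMeasurable)
      ((integrable_gauss ha2).const_mul _) (fun k => Filter.Eventually.of_forall fun y => ?_)
      (Filter.Eventually.of_forall fun y => ?_)
    · rw [Real.norm_eq_abs, abs_of_pos (Real.exp_pos _)]
      exact hdom (ψ k) y
    · exact (Real.continuous_exp.tendsto _).comp (t1 y).neg
  have e2 : ∀ (x₀ : E) (δ : ℝ), 0 < δ →
      Tendsto (fun k => ∫ y, bump x₀ δ (g (ψ k) y) * Real.exp (-φ (ψ k) y)) atTop
        (𝓝 (∫ y, bump x₀ δ (g' y) * Real.exp (-φ' y))) := by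
    intro x₀ δ hδ
    refine tendsto_integral_of_dominated_convergence
      (fun y => δ * (Real.exp C * Real.exp (-(a / 2 * ‖y‖ ^ 2))))
      (fun k => (((continuous_bump x₀ δ).comp (h (ψ k)).continuous_g).mul
        (h (ψ k)).continuous_φ.neg.rexp).aestronglyMeasurable)
      (((integrable_gauss ha2).const_mul _).const_mul _)
      (fun k => Filter.Eventually.of_forall fun y => ?_)
      (Filter.Eventually.of_forall fun y => ?_)
    · rw [Real.norm_eq_abs, abs_of_nonneg (mul_nonneg (bump_nonneg _ _ _) (Real.exp_pos _).le)]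
      exact mul_le_mul (bump_le _ hδ.le _) (hdom (ψ k) y) (Real.exp_pos _).le hδ.le
    · exact (((continuous_bump x₀ δ).tendsto _).comp (t2 y)).mul
        ((Real.continuous_exp.tendsto _).comp (t1 y).neg)
  have e3 : ∀ (x₀ : E) (δ : ℝ), 0 < δ →
      ∫ y, bump x₀ δ (g' y) * Real.exp (-φ' y) = ∫ x, bump x₀ δ x * Real.exp (-V x) :=
    fun x₀ δ hδ => tendsto_nhds_unique (e2 x₀ δ hδ) ((hpush x₀ δ hδ).comp hψ.tendsto_atTop)
  have hint : ∀ (x₀ : E) (δ : ℝ), 0 < δ →
      Integrable fun y => bump x₀ δ (g' y) * Real.exp (-φ' y) := by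
    intro x₀ δ hδ
    refine ((hG.integrable_exp ha).const_mul δ).mono'
      (((continuous_bump x₀ δ).comp hG.continuous_g).mul
        hG.continuous_φ.neg.rexp).aestronglyMeasurable (Filter.Eventually.of_forall fun y => ?_)
    rw [Real.norm_eq_abs, abs_of_nonneg (mul_nonneg (bump_nonneg _ _ _) (Real.exp_pos _).le)]
    exact mul_le_mul_of_nonneg_right (bump_le _ hδ.le _) (Real.exp_pos _).le
  have hma : ∀ y, Real.exp (-φ' y) = Real.exp (-V (g' y)) * |(T' y).det| := fun y =>
    monge_ampere (p := fun y => Real.exp (-φ' y)) (q := fun x => Real.exp (-V x)) ha hG.hess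
      (hG.continuous_T hM) (hG.surjective ha) hG.norm_g_ge hG.continuous_φ.neg.rexp hV.neg.rexp
      e3 hint y
  have hdet : ∀ y, 0 < (T' y).det := fun y => det_pos ha (T' y) (hG.lower y)
  refine ⟨φ', g', T', hG, fun y => ?_, fun y => ?_, fun F => ?_, ?_, ?_⟩
  · rw [hma y, abs_of_pos (hdet y)]
  · have := congrArg Real.log (hma y)
    rw [abs_of_pos (hdet y), Real.log_exp, Real.log_mul (Real.exp_pos _).ne' (hdet y).ne',
      Real.log_exp] at this
    linarith
  · exact push_of_ma ha hG hma F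
  · exact ge_of_tendsto' e1 fun k => h1 (ψ k)
  · exact le_of_tendsto' e1 fun k => h2 (ψ k)

/-- Level-`k` joint densities give the pushforward property up to `O(k^{-1/2})`. -/
theorem level_push {J : E → E → ℝ} (hJ0 : ∀ x y, 0 ≤ J x y)
    (hJ : Integrable (fun z : E × E => J z.1 z.2) (volume.prod volume))
    {p q : E → ℝ} (hx : ∀ x, ∫ y, J x y = q x) (hy : ∀ y, ∫ x, J x y = p y)
    {g : E → E} (hg : Continuous g) {B : ℝ} (hB : 0 < B)
    (hvi : Integrable (fun z : E × E => ‖z.1 - g z.2‖ ^ 2 * J z.1 z.2) (volume.prod volume))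
    (hvar : ∀ y, ∫ x, ‖x - g y‖ ^ 2 * J x y ≤ B ^ 2 * p y)
    {F : E → ℝ} {L K : ℝ} (hL : 0 ≤ L) (hF : ∀ x y, |F x - F y| ≤ L * ‖x - y‖)
    (hFK : ∀ x, |F x| ≤ K) :
    |(∫ y, F (g y) * p y) - ∫ x, F x * q x| ≤ L * B * ∫ y, p y := by
  have hFc : Continuous F := by
    have : LipschitzWith L.toNNReal F := LipschitzWith.of_dist_le_mul fun x y => by
      rw [Real.dist_eq, dist_eq_norm, Real.coe_toNNReal L hL]
      exact hF x y
    exact this.continuous
  have i1 : Integrable (fun z : E × E => F z.1 * J z.1 z.2) (volume.prod volume) := by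
    refine hJ.bdd_mul (c := K) (hFc.comp continuous_fst).aestronglyMeasurable
      (Filter.Eventually.of_forall fun z => ?_)
    exact hFK z.1
  have i2 : Integrable (fun z : E × E => F (g z.2) * J z.1 z.2) (volume.prod volume) := by
    refine hJ.bdd_mul (c := K) (hFc.comp (hg.comp continuous_snd)).aestronglyMeasurable
      (Filter.Eventually.of_forall fun z => ?_)
    exact hFK (g z.2)
  have s1 : ∫ x, F x * q x = ∫ z : E × E, F z.1 * J z.1 z.2 ∂(volume.prod volume) := by
    rw [integral_prod _ i1]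
    refine integral_congr_ae (Filter.Eventually.of_forall fun x => ?_)
    simp only
    rw [integral_const_mul, hx x]
  have s2 : ∫ y, F (g y) * p y = ∫ z : E × E, F (g z.2) * J z.1 z.2 ∂(volume.prod volume) := by
    rw [integral_prod_symm _ i2]
    refine integral_congr_ae (Filter.Eventually.of_forall fun y => ?_)
    simp only
    rw [integral_const_mul, hy y]
  have s3 : ∫ y, p y = ∫ z : E × E, J z.1 z.2 ∂(volume.prod volume) := by
    rw [integral_prod_symm _ hJ]
    refine integral_congr_ae (Filter.Eventually.of_forall fun y => ?_)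
    exact (hy y).symm
  have hpi : Integrable p := by
    have := hJ.integral_prod_right
    refine this.congr (Filter.Eventually.of_forall fun y => ?_)
    exact hy y
  have s4 : ∫ z : E × E, ‖z.1 - g z.2‖ ^ 2 * J z.1 z.2 ∂(volume.prod volume) ≤
      B ^ 2 * ∫ y, p y := by
    rw [integral_prod_symm _ hvi, ← integral_const_mul]
    exact integral_mono hvi.integral_prod_right (hpi.const_mul _) hvar
  rw [s1, s2, ← integral_sub i2 i1]
  have hb : ∀ z : E × E, ‖F (g z.2) * J z.1 z.2 - F z.1 * J z.1 z.2‖ ≤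
      L / (2 * B) * (‖z.1 - g z.2‖ ^ 2 * J z.1 z.2) + L * B / 2 * J z.1 z.2 := by
    intro z
    rw [← sub_mul, Real.norm_eq_abs, abs_mul, abs_of_nonneg (hJ0 _ _)]
    have e1 := hF (g z.2) z.1
    rw [norm_sub_rev] at e1
    have e2 : L * ‖z.1 - g z.2‖ ≤ L / (2 * B) * ‖z.1 - g z.2‖ ^ 2 + L * B / 2 := by
      have : 0 ≤ L / (2 * B) * (‖z.1 - g z.2‖ - B) ^ 2 := by positivity
      have e3 : L / (2 * B) * (‖z.1 - g z.2‖ - B) ^ 2 =
          L / (2 * B) * ‖z.1 - g z.2‖ ^ 2 + L * B / 2 - L * ‖z.1 - g z.2‖ := by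
        field_simp
        ring
      linarith
    have := mul_le_mul_of_nonneg_right (e1.trans e2) (hJ0 z.1 z.2)
    linarith
  have ii : Integrable (fun z : E × E => L / (2 * B) * (‖z.1 - g z.2‖ ^ 2 * J z.1 z.2) +
      L * B / 2 * J z.1 z.2) (volume.prod volume) :=
    (hvi.const_mul _).add (hJ.const_mul _)
  have hmain := norm_integral_le_of_norm_le ii (Filter.Eventually.of_forall hb)
  rw [Real.norm_eq_abs] at hmain
  refine hmain.trans ?_
  rw [integral_add (hvi.const_mul _) (hJ.const_mul _), integral_const_mul, integral_const_mul,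
    ← s3]
  have : L / (2 * B) * ∫ z : E × E, ‖z.1 - g z.2‖ ^ 2 * J z.1 z.2 ∂(volume.prod volume) ≤
      L / (2 * B) * (B ^ 2 * ∫ y, p y) := by gcongr
  have e4 : L / (2 * B) * (B ^ 2 * ∫ y, p y) = L * B / 2 * ∫ y, p y := by
    field_simp
  linarith

end Vale.Agent.P254.NS.LimC
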